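import Vale.Agent.P087.Gue.Trace

/-!
Asymptotic freeness in moments of independent Gaussian Hermitian matrices and deterministic
matrices: joint trace moments converge to those of the Schwinger-Dyson functional, in expectation
of products of traces and in probability.
-/

namespace Vale.Agent.P087.Gue

open Finset Matrix MeasureTheory Filter Topology

/-- The normalised trace. -/
noncomputable def ntr {K : Type*} [Fintype K] (A : Matrix K K ℂ) : ℂ :=
  trace A / (Fintype.card K : ℂ)

/-- The Gaussian Hermitian matrix `((1 - i) / 2 X + (1 + i) / 2 Xᵀ) / sqrt N`. -/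
noncomputable def gue {ι K : Type*} [Fintype K] (x : ι × K × K → ℝ) (j : ι) : Matrix K K ℂ :=
  fun a b => scale K * (cA * (x (j, a, b) : ℂ) + cB * (x (j, b, a) : ℂ))

/-- The matrix of a word in deterministic and Gaussian letters. -/
noncomputable def wordMat {ι α K : Type*} [Fintype K] [DecidableEq K] (D : α → Matrix K K ℂ)
    (x : ι × K × K → ℝ) (w : List (α ⊕ ι)) : Matrix K K ℂ :=
  (w.map (Sum.elim D (gue x))).prod

/-- The number of Gaussian letters. -/
def gc {ι α : Type*} (w : List (α ⊕ ι)) : ℕ := w.countP Sum.isRight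

/-- The adjoint word, for an adjoint operation on the deterministic letters. -/
def adjWord {ι α : Type*} (st : α → α) (w : List (α ⊕ ι)) : List (α ⊕ ι) :=
  (w.map (Sum.map st id)).reverse

section eval

variable {ι α K : Type*} [Fintype K] [DecidableEq K] (D : α → Matrix K K ℂ)

omit [DecidableEq K] in
lemma gue_conjTranspose (x : ι × K × K → ℝ) (j : ι) : (gue x j)ᴴ = gue x j := by
  ext a b
  have hA : (starRingEnd ℂ) cA = cB := by simp [cA, cB, map_ofNat]
  have hB : (starRingEnd ℂ) cB = cA := by simp [cA, cB, map_ofNat, sub_eq_add_neg]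
  have hs : (starRingEnd ℂ) (scale K) = scale K := by simp [scale]
  simp only [conjTranspose_apply, gue, Complex.star_def, map_mul, map_add, Complex.conj_ofReal,
    hA, hB, hs]
  ring

variable [Fintype ι]

omit [Fintype ι] in
lemma wordP_map_peval (x : ι × K × K → ℝ) (w : List (α ⊕ ι)) :
    (wordP D w).map (peval x) = wordMat D x w := by
  induction w with
  | nil => simp [wordP, wordMat, Matrix.map_one]
  | cons g w ih =>
    rw [show wordP D (g :: w) = letP D g * wordP D w by simp [wordP], Matrix.map_mul, ih,
      show wordMat D x (g :: w) = Sum.elim D (gue x) g * wordMat D x w by simp [wordMat]]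
    congr 1
    refine Matrix.ext fun a b => ?_
    rcases g with i | j
    · simp [letP, cm, peval]
    · simp [letP, gp, gue, peval]; ring

omit [Fintype ι] in
lemma peval_ntrP (x : ι × K × K → ℝ) (w : List (α ⊕ ι)) :
    peval x (ntrP D w) = ntr (wordMat D x w) := by
  rw [ntrP, map_mul, AddMonoidHom.map_trace (peval x) (wordP D w), wordP_map_peval, ntr]
  simp [peval, div_eq_inv_mul]

lemma tmom_eq_integral (ws : List (List (α ⊕ ι))) :
    tmom D ws = ∫ x, (ws.map fun w => ntr (wordMat D x w)).prod ∂gauss (ι × K × K) := by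
  refine integral_congr_ae (ae_of_all _ fun x => ?_)
  simp only [map_list_prod, List.map_map]
  exact congrArg List.prod (List.map_congr_left fun w _ => peval_ntrP D x w)

omit [Fintype ι] in
lemma wordMat_adjWord {st : α → α} (hD : ∀ a, D (st a) = (D a)ᴴ) (x : ι × K × K → ℝ) :
    ∀ w : List (α ⊕ ι), wordMat D x (adjWord st w) = (wordMat D x w)ᴴ
  | [] => by simp [wordMat, adjWord]
  | g :: w => by
    have ih := wordMat_adjWord hD x w
    simp only [wordMat, adjWord] at ih
    simp only [wordMat, adjWord, List.map_cons, List.reverse_cons, List.map_append, List.prod_append,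
      List.map_nil, List.prod_cons, List.prod_nil, mul_one, conjTranspose_mul, ih]
    rcases g with i | j <;> simp [hD, gue_conjTranspose]

omit [DecidableEq K] [Fintype ι] in
lemma ntr_conjTranspose (A : Matrix K K ℂ) : ntr Aᴴ = star (ntr A) := by
  simp [ntr, trace_conjTranspose]

end eval

section limit

variable {ι α : Type*} [Fintype ι] [DecidableEq ι]
variable (κ : ℕ → Type*) [∀ n, Fintype (κ n)] [∀ n, DecidableEq (κ n)]
variable (D : ∀ n, α → Matrix (κ n) (κ n) ℂ) (φ : List (α ⊕ ι) → ℂ)

/-- `φ` describes the limit: it extends the limit of the deterministic moments, is invariant under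
rotations and satisfies the Schwinger-Dyson equation in the Gaussian letters. -/
structure IsLimit : Prop where
  card : Tendsto (fun n => Fintype.card (κ n)) atTop atTop
  det : ∀ u : List α, Tendsto (fun n => ntr (u.map (D n)).prod) atTop (𝓝 (φ (u.map Sum.inl)))
  rot : ∀ u v, φ (u ++ v) = φ (v ++ u)
  sd : ∀ j u, φ (Sum.inr j :: u) =
    (((splits u).filter fun p => hit j p.2.1).map fun p => φ p.1 * φ p.2.2).sum

variable {κ D φ}

omit [Fintype ι] [∀ n, DecidableEq (κ n)] in
lemma gc_hit {j : ι} {u : List (α ⊕ ι)} {p : List (α ⊕ ι) × (α ⊕ ι) × List (α ⊕ ι)}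
    (hp : p ∈ (splits u).filter fun p => hit j p.2.1) : gc p.1 + gc p.2.2 + 1 = gc u := by
  obtain ⟨hp, hh⟩ := List.mem_filter.1 hp
  have hr : p.2.1.isRight = true := by
    revert hh
    cases p.2.1 <;> simp [hit]
  rw [splits_spec hp]
  simp [gc, List.countP_append, hr]
  omega

/-- Joint moments of traces converge to the products of the limit functional. -/
theorem tendsto_tmom (h : IsLimit κ D φ) : ∀ ws : List (List (α ⊕ ι)),
    Tendsto (fun n => tmom (D n) ws) atTop (𝓝 (ws.map φ).prod) := by
  suffices H : ∀ (g : ℕ) (ws : List (List (α ⊕ ι))), (ws.map gc).sum ≤ g →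
      Tendsto (fun n => tmom (D n) ws) atTop (𝓝 (ws.map φ).prod) from fun ws => H _ ws le_rfl
  intro g
  induction g using Nat.strong_induction_on with
  | _ g ih =>
  intro ws hg
  by_cases hz : ∀ w ∈ ws, ∀ a ∈ w, a.isRight = false
  · have hw : ∀ w ∈ ws, ∃ u : List α, w = u.map Sum.inl := by
      intro w hw
      refine ⟨w.filterMap Sum.getLeft?, ?_⟩
      have : ∀ v : List (α ⊕ ι), (∀ a ∈ v, a.isRight = false) →
          v = (v.filterMap Sum.getLeft?).map Sum.inl := by
        intro v
        induction v with
        | nil => simp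
        | cons a v ihv =>
          intro hv
          have h1 := hv a (by simp)
          rcases a with i | j
          · simp [← ihv fun b hb => hv b (by simp [hb])]
          · simp at h1
      exact this w (hz w hw)
    have e : ∀ n, tmom (D n) ws =
        (ws.map fun w => ntr (wordMat (D n) (0 : ι × κ n × κ n → ℝ) w)).prod := by
      intro n
      rw [tmom_eq_integral]
      have hc : ∀ x, (ws.map fun w => ntr (wordMat (D n) x w)) =
          ws.map fun w => ntr (wordMat (D n) (0 : ι × κ n × κ n → ℝ) w) := by
        intro x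
        refine List.map_congr_left fun w hw' => ?_
        obtain ⟨u, rfl⟩ := hw w hw'
        simp [wordMat, List.map_map, Function.comp_def]
      simp only [hc, integral_const, probReal_univ, one_smul]
    simp only [e]
    refine tendsto_list_prod ws fun w hw' => ?_
    obtain ⟨u, rfl⟩ := hw w hw'
    simpa [wordMat, List.map_map, Function.comp_def] using h.det u
  · push Not at hz
    obtain ⟨w, hw, a, ha, har⟩ := hz
    obtain ⟨j, rfl⟩ : ∃ j, a = Sum.inr j := by
      rcases a with i | j
      · simp at har
      · exact ⟨j, rfl⟩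
    obtain ⟨s, t, rfl⟩ := List.append_of_mem ha
    obtain ⟨r₁, r₂, rfl⟩ := List.append_of_mem hw
    set u := t ++ s
    set rest := r₁ ++ r₂
    have hperm : (r₁ ++ (s ++ Sum.inr j :: t) :: r₂).Perm ((s ++ Sum.inr j :: t) :: rest) :=
      List.perm_middle
    have e1 : ∀ n, tmom (D n) (r₁ ++ (s ++ Sum.inr j :: t) :: r₂) =
        tmom (D n) ((Sum.inr j :: u) :: rest) := fun n => by
      rw [tmom_perm _ hperm]
      simp only [tmom, List.map_cons]
      rw [ntrP_rotate]
      rfl
    have hgu : (((Sum.inr j :: u) :: rest).map gc).sum ≤ g := by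
      refine le_trans (le_of_eq ?_) hg
      rw [(hperm.map gc).sum_eq]
      simp [gc, u, List.countP_append, List.countP_cons]
      omega
    simp only [List.map_cons, List.sum_cons] at hgu
    have hu : gc (Sum.inr j :: u) = gc u + 1 := by simp [gc, List.countP_cons]
    rw [show ((r₁ ++ (s ++ Sum.inr j :: t) :: r₂).map φ).prod =
        φ (Sum.inr j :: u) * (rest.map φ).prod by
      rw [(hperm.map φ).prod_eq, List.map_cons, List.prod_cons, h.rot]
      rfl]
    simp only [e1, tmom_rec]
    have hfirst : Tendsto (fun n => (((splits u).filter fun p => hit j p.2.1).map fun p =>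
        tmom (D n) (p.1 :: p.2.2 :: rest)).sum) atTop
        (𝓝 (φ (Sum.inr j :: u) * (rest.map φ).prod)) := by
      rw [h.sd, ← List.sum_map_mul_right]
      refine tendsto_list_sum _ fun p hp => ?_
      have := gc_hit hp
      have := ih (g - 2) (by omega) (p.1 :: p.2.2 :: rest) (by
        simp only [List.map_cons, List.sum_cons]; omega)
      simpa [mul_assoc] using this
    have hzero : Tendsto (fun n => (1 / (Fintype.card (κ n) : ℂ)) ^ 2) atTop (𝓝 0) := by
      have h1 : Tendsto (fun m : ℕ => (1 / (m : ℂ)) ^ 2) atTop (𝓝 0) := by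
        simpa using (tendsto_one_div_atTop_nhds_zero_nat (𝕜 := ℂ)).pow 2
      exact h1.comp h.card
    have hsecond : Tendsto (fun n => ((splits rest).map fun q =>
        (((splits q.2.1).filter fun p => hit j p.2.1).map fun p =>
          tmom (D n) ((u ++ p.2.2 ++ p.1) :: (q.1 ++ q.2.2))).sum).sum) atTop
        (𝓝 ((splits rest).map fun q => (((splits q.2.1).filter fun p => hit j p.2.1).map fun p =>
          (((u ++ p.2.2 ++ p.1) :: (q.1 ++ q.2.2)).map φ).prod).sum).sum) := by
      refine tendsto_list_sum _ fun q hq => tendsto_list_sum _ fun p hp => ?_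
      have h1 := gc_hit hp
      have h2 : (rest.map gc).sum = gc q.2.1 + ((q.1 ++ q.2.2).map gc).sum := by
        rw [splits_spec hq]
        simp
        omega
      refine ih (g - 2) (by omega) _ ?_
      rw [List.map_cons, List.sum_cons, show gc (u ++ p.2.2 ++ p.1) = gc u + gc p.2.2 + gc p.1 by
        simp only [gc, List.countP_append]]
      omega
    have := hfirst.add (hzero.mul hsecond)
    rwa [zero_mul, add_zero] at this

/-- The limit functional is compatible with adjoints. -/
theorem IsLimit.adjWord_eq (h : IsLimit κ D φ) {st : α → α}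
    (hD : ∀ n a, D n (st a) = (D n a)ᴴ) (w : List (α ⊕ ι)) :
    φ (adjWord st w) = star (φ w) := by
  have h1 := tendsto_tmom h [adjWord st w]
  have h2 := (Complex.continuous_conj.tendsto _).comp (tendsto_tmom h [w])
  simp only [List.map_cons, List.map_nil, List.prod_cons, List.prod_nil, mul_one] at h1 h2
  refine tendsto_nhds_unique h1 (h2.congr fun n => ?_)
  simp only [Function.comp_apply, tmom_eq_integral, List.map_cons, List.map_nil, List.prod_cons,
    List.prod_nil, mul_one, wordMat_adjWord (D n) (hD n), ntr_conjTranspose, Complex.star_def]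
  exact integral_conj.symm

omit [DecidableEq ι] in
lemma measurable_ntr_wordMat {K : Type*} [Fintype K] [DecidableEq K] (D : α → Matrix K K ℂ)
    (w : List (α ⊕ ι)) : Measurable fun x : ι × K × K → ℝ => ntr (wordMat D x w) := by
  simp only [← peval_ntrP]
  exact ((MvPolynomial.continuous_eval (ntrP D w)).comp (by fun_prop)).measurable

/-- The mean squared deviation of one trace. -/
lemma tendsto_sq_dev (h : IsLimit κ D φ) {st : α → α} (hD : ∀ n a, D n (st a) = (D n a)ᴴ)
    (w : List (α ⊕ ι)) :
    Tendsto (fun n => ∫ x, ‖ntr (wordMat (D n) x w) - φ w‖ ^ 2 ∂gauss (ι × κ n × κ n))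
      atTop (𝓝 0) := by
  set c := φ w
  set w' := adjWord st w
  have hlim : Tendsto (fun n => tmom (D n) [w, w'] - star c * tmom (D n) [w] -
      c * tmom (D n) [w'] + c * star c) atTop (𝓝 0) := by
    have := ((((tendsto_tmom h [w, w']).sub ((tendsto_tmom h [w]).const_mul (star c))).sub
      ((tendsto_tmom h [w']).const_mul c)).add (tendsto_const_nhds (x := c * star c)))
    convert this using 2
    simp only [List.map_cons, List.map_nil, List.prod_cons, List.prod_nil, mul_one, w',
      h.adjWord_eq hD w, c]
    ring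
  have e : ∀ n, ((∫ x, ‖ntr (wordMat (D n) x w) - c‖ ^ 2 ∂gauss (ι × κ n × κ n) : ℝ) : ℂ) =
      tmom (D n) [w, w'] - star c * tmom (D n) [w] - c * tmom (D n) [w'] + c * star c := by
    intro n
    simp only [tmom, ← Ex_C_mul]
    rw [← Ex_C (V := ι × κ n × κ n) (c * star c), ← Ex_sub, ← Ex_sub, ← Ex_add, Ex,
      ← integral_complex_ofReal]
    refine integral_congr_ae (ae_of_all _ fun x => ?_)
    simp only [map_sub, map_add, map_mul, List.map_cons, List.map_nil, List.prod_cons, List.prod_nil,
      mul_one, peval_ntrP, w', wordMat_adjWord (D n) (hD n), ntr_conjTranspose]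
    simp only [peval, MvPolynomial.eval_C, Complex.star_def, Complex.ofReal_pow]
    rw [← Complex.mul_conj', map_sub]
    ring
  have h2 := (Complex.continuous_re.tendsto _).comp hlim
  rw [Complex.zero_re] at h2
  refine h2.congr fun n => ?_
  rw [Function.comp_apply, ← e n, Complex.ofReal_re]

/-- Trace moments converge in probability. -/
theorem tendsto_prob (h : IsLimit κ D φ) {st : α → α} (hD : ∀ n a, D n (st a) = (D n a)ᴴ)
    (W : Finset (List (α ⊕ ι))) {ε : ℝ} (hε : 0 < ε) :
    Tendsto (fun n => (gauss (ι × κ n × κ n)).real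
      {x | ∀ w ∈ W, ‖ntr (wordMat (D n) x w) - φ w‖ < ε}) atTop (𝓝 1) := by
  have hlow : ∀ n, 1 - ∑ w ∈ W,
      (∫ x, ‖ntr (wordMat (D n) x w) - φ w‖ ^ 2 ∂gauss (ι × κ n × κ n)) / ε ^ 2 ≤
      (gauss (ι × κ n × κ n)).real {x | ∀ w ∈ W, ‖ntr (wordMat (D n) x w) - φ w‖ < ε} := by
    intro n
    set μ := gauss (ι × κ n × κ n)
    set S := {x | ∀ w ∈ W, ‖ntr (wordMat (D n) x w) - φ w‖ < ε}
    have hm : MeasurableSet S := by
      rw [show S = ⋂ w ∈ W, {x | ‖ntr (wordMat (D n) x w) - φ w‖ < ε} by ext; simp [S]]
      exact Finset.measurableSet_biInter W fun w _ => measurableSet_lt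
        ((measurable_ntr_wordMat (D n) w).sub_const _).norm measurable_const
    have hc : Sᶜ = ⋃ w ∈ W, {x | ε ^ 2 ≤ ‖ntr (wordMat (D n) x w) - φ w‖ ^ 2} := by
      ext x
      simp only [S, Set.mem_compl_iff, Set.mem_ofPred_eq, Set.mem_iUnion, not_forall, not_lt,
        pow_le_pow_iff_left₀ hε.le (norm_nonneg _) two_ne_zero, exists_prop]
    have h1 := probReal_compl_eq_one_sub (μ := μ) hm
    have h2 : μ.real Sᶜ ≤ ∑ w ∈ W,
        (∫ x, ‖ntr (wordMat (D n) x w) - φ w‖ ^ 2 ∂μ) / ε ^ 2 := by
      rw [hc]
      refine (measureReal_biUnion_finset_le _ _).trans (Finset.sum_le_sum fun w _ => ?_)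
      rw [le_div_iff₀ (by positivity), mul_comm]
      refine mul_meas_ge_le_integral_of_nonneg (ae_of_all _ fun x => sq_nonneg _) ?_ _
      have hi := integrable_peval (V := ι × κ n × κ n)
        ((ntrP (D n) w - MvPolynomial.C (φ w)) *
          (ntrP (D n) (adjWord st w) - MvPolynomial.C (star (φ w))))
      refine hi.norm.congr (ae_of_all _ fun x => ?_)
      simp only [map_mul, map_sub, peval_ntrP, wordMat_adjWord (D n) (hD n), ntr_conjTranspose]
      simp only [peval, MvPolynomial.eval_C, ← star_sub, norm_mul, norm_star, sq]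
    linarith
  have hto : Tendsto (fun n => 1 - ∑ w ∈ W,
      (∫ x, ‖ntr (wordMat (D n) x w) - φ w‖ ^ 2 ∂gauss (ι × κ n × κ n)) / ε ^ 2)
      atTop (𝓝 1) := by
    have := tendsto_finsetSum W fun w _ => (tendsto_sq_dev h hD w).div_const (ε ^ 2)
    simp only [zero_div, sum_const_zero] at this
    simpa using tendsto_const_nhds.sub this
  exact tendsto_of_tendsto_of_tendsto_of_le_of_le hto tendsto_const_nhds hlow
    fun n => measureReal_le_one

end limit

end Vale.Agent.P087.Gue
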