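import Vale.Agent.P087.Gue.Moments

/-!
The operator norm of the Gaussian Hermitian matrices stays bounded: trace moments of order up to
`sqrt N` grow at most like `7 ^ p`.
-/

namespace Vale.Agent.P087.Gue

open Finset Matrix MeasureTheory Filter Topology

lemma splits_map {A B : Type*} (f : A → B) : ∀ l : List A,
    splits (l.map f) = (splits l).map fun q => (q.1.map f, f q.2.1, q.2.2.map f)
  | [] => rfl
  | a :: l => by simp [splits, splits_map f l, List.map_map, Function.comp_def]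

lemma sum_splits_replicate {A M : Type*} [AddCommMonoid M] (a : A) : ∀ (l : ℕ)
    (F : List A × A × List A → M), ((splits (List.replicate l a)).map F).sum =
      ∑ i ∈ range l, F (List.replicate i a, a, List.replicate (l - 1 - i) a)
  | 0, F => by simp [splits]
  | l + 1, F => by
    rw [List.replicate_succ, splits, List.map_cons, List.sum_cons, List.map_map,
      sum_splits_replicate a l, sum_range_succ']
    simp only [Function.comp_apply, List.replicate_zero, Nat.add_sub_cancel, Nat.sub_zero]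
    rw [add_comm]
    congr 1
    refine sum_congr rfl fun i _ => ?_
    rw [show l - (i + 1) = l - 1 - i by omega]
    rfl

lemma norm_list_sum_le' {A : Type*} (f : A → ℂ) : ∀ l : List A,
    ‖(l.map f).sum‖ ≤ (l.map fun a => ‖f a‖).sum
  | [] => by simp
  | a :: l => by
    simp only [List.map_cons, List.sum_cons]
    exact (norm_add_le _ _).trans (add_le_add_right (norm_list_sum_le' f l) _)

/-- The comparison sequence `7 ^ l / (l + 1) ^ 2`. -/
noncomputable def bd (l : ℕ) : ℝ := 7 ^ l / ((l : ℝ) + 1) ^ 2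

lemma bd_pos (l : ℕ) : 0 < bd l := by unfold bd; positivity

lemma sum_inv_sq_le : ∀ l : ℕ, ∑ i ∈ range (l + 1), 1 / ((i : ℝ) + 1) ^ 2 ≤ 2 - 1 / ((l : ℝ) + 1)
  | 0 => by simp; norm_num
  | l + 1 => by
    rw [sum_range_succ]
    refine le_trans (add_le_add_left (sum_inv_sq_le l) _) ?_
    have key : 1 / ((l : ℝ) + 2) ^ 2 ≤ 1 / ((l : ℝ) + 1) - 1 / ((l : ℝ) + 2) := by
      rw [div_sub_div _ _ (by positivity) (by positivity), div_le_div_iff₀ (by positivity)
        (by positivity)]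
      nlinarith [Nat.cast_nonneg (α := ℝ) l]
    push_cast
    rw [show (l : ℝ) + 1 + 1 = l + 2 by ring]
    linarith

lemma conv_bd_le (l : ℕ) :
    ∑ i ∈ range l, bd i * bd (l - 1 - i) ≤ 32 / 49 * bd (l + 1) := by
  rcases l with _ | k
  · simp only [range_zero, sum_empty]
    exact mul_nonneg (by norm_num) (bd_pos _).le
  · have e : ∀ i ∈ range (k + 1), bd i * bd (k + 1 - 1 - i) =
        7 ^ k * (1 / (((i : ℝ) + 1) ^ 2 * (((k - i : ℕ) : ℝ) + 1) ^ 2)) := fun i hi => by
      have hik : i ≤ k := Nat.lt_succ_iff.1 (mem_range.1 hi)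
      rw [Nat.add_sub_cancel, bd, bd, div_mul_div_comm, ← pow_add, Nat.add_sub_cancel' hik,
        mul_one_div]
    have h2 : ∀ i ∈ range (k + 1), 1 / (((i : ℝ) + 1) ^ 2 * (((k - i : ℕ) : ℝ) + 1) ^ 2) ≤
        2 / ((k : ℝ) + 2) ^ 2 * (1 / ((i : ℝ) + 1) ^ 2 + 1 / (((k - i : ℕ) : ℝ) + 1) ^ 2) :=
      fun i hi => by
      have hik : i ≤ k := Nat.lt_succ_iff.1 (mem_range.1 hi)
      set x : ℝ := (i : ℝ) + 1
      set y : ℝ := ((k - i : ℕ) : ℝ) + 1
      have hx : 0 < x := by positivity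
      have hy : 0 < y := by positivity
      have hxy : (k : ℝ) + 2 = x + y := by
        simp only [x, y, Nat.cast_sub hik]
        ring
      rw [hxy, div_add_div _ _ (by positivity) (by positivity), div_mul_div_comm,
        div_le_div_iff₀ (by positivity) (by positivity)]
      nlinarith [mul_le_mul_of_nonneg_left (add_sq_le (a := x) (b := y))
        (show 0 ≤ x ^ 2 * y ^ 2 by positivity)]
    have hr : ∑ i ∈ range (k + 1), 1 / (((k - i : ℕ) : ℝ) + 1) ^ 2 =
        ∑ i ∈ range (k + 1), 1 / ((i : ℝ) + 1) ^ 2 := by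
      rw [← sum_range_reflect (fun i => 1 / ((i : ℝ) + 1) ^ 2) (k + 1)]
      simp
    have h3 : ∑ i ∈ range (k + 1), 1 / (((i : ℝ) + 1) ^ 2 * (((k - i : ℕ) : ℝ) + 1) ^ 2) ≤
        8 / ((k : ℝ) + 2) ^ 2 := by
      refine (sum_le_sum h2).trans ?_
      rw [← mul_sum, sum_add_distrib, hr]
      have h4 := sum_inv_sq_le k
      have h5 : 0 ≤ 1 / ((k : ℝ) + 1) := by positivity
      calc 2 / ((k : ℝ) + 2) ^ 2 * _ ≤ 2 / ((k : ℝ) + 2) ^ 2 * 4 :=
            mul_le_mul_of_nonneg_left (by linarith) (by positivity)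
        _ = _ := by ring
    rw [sum_congr rfl e, ← mul_sum]
    refine (mul_le_mul_of_nonneg_left h3 (by positivity)).trans ?_
    have h7 : (7 : ℝ) ^ (k + 1 + 1) = 7 ^ k * 49 := by ring
    rw [bd, h7]
    push_cast
    rw [mul_div_assoc', mul_div_assoc', div_le_div_iff₀ (by positivity) (by positivity)]
    have h6 : ((k : ℝ) + 1 + 1 + 1) ^ 2 ≤ 4 * ((k : ℝ) + 2) ^ 2 := by
      nlinarith [Nat.cast_nonneg (α := ℝ) k]
    nlinarith [mul_le_mul_of_nonneg_left h6 (show (0 : ℝ) ≤ 8 * 7 ^ k by positivity)]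

lemma bd_step_le (l m : ℕ) (hm : 0 < m) {P : ℝ} (hP : (m : ℝ) + 1 ≤ P) :
    bd (l + m - 1) ≤ 4 / 49 * P ^ 2 * (bd (l + 1) * bd m) := by
  obtain ⟨m, rfl⟩ : ∃ m', m = m' + 1 := ⟨m - 1, by omega⟩
  rw [show l + (m + 1) - 1 = l + m by omega]
  simp only [bd]
  push_cast at hP ⊢
  have e : (7 : ℝ) ^ (l + 1) * 7 ^ (m + 1) = 49 * 7 ^ (l + m) := by ring
  rw [div_mul_div_comm, e, mul_div_assoc', div_le_div_iff₀ (by positivity) (by positivity)]
  have h1 : ((l : ℝ) + 1 + 1) ^ 2 ≤ 4 * ((l : ℝ) + m + 1) ^ 2 := by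
    nlinarith [Nat.cast_nonneg (α := ℝ) l, Nat.cast_nonneg (α := ℝ) m]
  have h2 : ((m : ℝ) + 1 + 1) ^ 2 ≤ P ^ 2 := pow_le_pow_left₀ (by positivity) hP 2
  nlinarith [mul_le_mul_of_nonneg_left (mul_le_mul h1 h2 (by positivity) (by positivity))
    (show (0 : ℝ) ≤ 7 ^ (l + m) by positivity)]

variable {ι K : Type*} [Fintype ι] [DecidableEq ι] [Fintype K] [DecidableEq K]

/-- Expected products of traces of powers of one Gaussian matrix. -/
noncomputable def pmom (K : Type*) [Fintype K] [DecidableEq K] (j : ι) (ls : List ℕ) : ℂ :=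
  tmom (fun a : Empty => (a.elim : Matrix K K ℂ)) (ls.map fun l => List.replicate l (Sum.inr j))

omit [DecidableEq ι] in
lemma pmom_zero_cons (hK : 0 < Fintype.card K) (j : ι) (ls : List ℕ) :
    pmom K j (0 :: ls) = pmom K j ls := by
  have h : (Fintype.card K : ℂ) ≠ 0 := Nat.cast_ne_zero.2 hK.ne'
  have e : ntrP (fun a : Empty => (a.elim : Matrix K K ℂ)) ([] : List (Empty ⊕ ι)) = 1 := by
    rw [ntrP, wordP, List.map_nil, List.prod_nil, trace_one, ← map_natCast MvPolynomial.C, ← map_mul,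
      one_div, inv_mul_cancel₀ h, map_one]
  simp [pmom, tmom, e]

lemma pmom_rec (j : ι) (l : ℕ) (ls : List ℕ) :
    pmom K j ((l + 1) :: ls) = (∑ i ∈ range l, pmom K j (i :: (l - 1 - i) :: ls)) +
      (1 / (Fintype.card K : ℂ)) ^ 2 *
        ((splits ls).map fun q => ∑ _i ∈ range q.2.1,
          pmom K j ((l + q.2.1 - 1) :: (q.1 ++ q.2.2))).sum := by
  simp only [pmom, List.map_cons]
  rw [List.replicate_succ, tmom_rec]
  have hf : ∀ n : ℕ, (splits (List.replicate n (Sum.inr j : Empty ⊕ ι))).filter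
      (fun p => hit j p.2.1) = splits (List.replicate n (Sum.inr j)) := fun n => by
    refine List.filter_eq_self.2 fun p hp => ?_
    have hmem : p.2.1 ∈ List.replicate n (Sum.inr j : Empty ⊕ ι) := by
      rw [splits_spec hp]; simp
    rw [List.eq_of_mem_replicate hmem]
    simp [hit]
  congr 1
  · rw [hf, sum_splits_replicate]
  · congr 1
    rw [splits_map, List.map_map]
    refine congrArg List.sum (List.map_congr_left fun q _ => ?_)
    simp only [Function.comp_apply, hf, sum_splits_replicate]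
    refine sum_congr rfl fun i hi => ?_
    have : i < q.2.1 := mem_range.1 hi
    simp only [List.replicate_append_replicate, List.map_append]
    rw [show l + (q.2.1 - 1 - i) + i = l + q.2.1 - 1 by omega]

lemma sum_splits_weight : ∀ (ls : List ℕ) (g : ℕ → ℝ),
    ((splits ls).map fun q => (q.2.1 : ℝ) * (g q.2.1 * ((q.1 ++ q.2.2).map g).prod)).sum =
      (ls.sum : ℝ) * (ls.map g).prod := by
  intro ls g
  have e : ∀ q ∈ splits ls, (q.2.1 : ℝ) * (g q.2.1 * ((q.1 ++ q.2.2).map g).prod) =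
      (q.2.1 : ℝ) * (ls.map g).prod := fun q hq => by
    congr 1
    conv_rhs => rw [splits_spec hq]
    simp only [List.map_append, List.prod_append, List.map_cons, List.prod_cons]
    ring
  rw [List.map_congr_left e, List.sum_map_mul_right]
  congr 1
  have : ∀ l : List ℕ, ((splits l).map fun q => (q.2.1 : ℝ)).sum = (l.sum : ℝ) := by
    intro l
    induction l with
    | nil => simp [splits]
    | cons a l ih => simp [splits, List.map_map, Function.comp_def, ih]
  exact this ls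

theorem norm_pmom_le (j : ι) : ∀ ls : List ℕ,
    ((ls.sum : ℝ) + 2) ^ 4 ≤ (Fintype.card K : ℝ) ^ 2 → ‖pmom K j ls‖ ≤ (ls.map bd).prod := by
  suffices H : ∀ (g : ℕ) (ls : List ℕ), ls.sum + ls.length ≤ g →
      ((ls.sum : ℝ) + 2) ^ 4 ≤ (Fintype.card K : ℝ) ^ 2 → ‖pmom K j ls‖ ≤ (ls.map bd).prod from
    fun ls => H _ ls le_rfl
  intro g
  induction g using Nat.strong_induction_on with
  | _ g ih =>
  intro ls hg hN
  have hK : 0 < Fintype.card K := by
    by_contra h
    have h0 : Fintype.card K = 0 := by omega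
    rw [h0] at hN
    have : (0 : ℝ) < ((ls.sum : ℝ) + 2) ^ 4 := by positivity
    simp only [Nat.cast_zero, ne_eq, OfNat.ofNat_ne_zero, not_false_eq_true, zero_pow] at hN
    linarith
  rcases ls with _ | ⟨l, ls⟩
  · simp [pmom, tmom, Ex]
  rcases l with _ | l
  · rw [pmom_zero_cons hK, List.map_cons, List.prod_cons, show bd 0 = 1 by simp [bd], one_mul]
    simp only [List.sum_cons, List.length_cons, zero_add] at hg hN
    exact ih (ls.sum + ls.length) (by omega) ls le_rfl hN
  simp only [List.sum_cons, List.length_cons] at hg hN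
  rw [Nat.cast_add, Nat.cast_add, Nat.cast_one] at hN
  have hs : ∀ (ls' : List ℕ), ls'.sum < (l + 1) + ls.sum → ls'.length ≤ ls.length + 2 →
      ls'.sum + 2 ≤ (l + 1) + ls.sum → ‖pmom K j ls'‖ ≤ (ls'.map bd).prod := by
    intro ls' h1 h2 h3
    refine ih (ls'.sum + ls'.length) (by omega) ls' le_rfl (le_trans ?_ hN)
    have : (ls'.sum : ℝ) ≤ (l : ℝ) + 1 + ls.sum := by exact_mod_cast h1.le
    exact pow_le_pow_left₀ (by positivity) (by linarith) 4
  set T := ((ls.map bd).prod) with hT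
  have hT0 : 0 ≤ T := List.prod_nonneg fun a ha => by
    obtain ⟨b, -, rfl⟩ := List.mem_map.1 ha; exact (bd_pos b).le
  have h1 : ‖∑ i ∈ range l, pmom K j (i :: (l - 1 - i) :: ls)‖ ≤ 32 / 49 * bd (l + 1) * T := by
    refine (norm_sum_le _ _).trans ((sum_le_sum fun i hi => ?_).trans
      (le_of_eq_of_le (sum_mul _ _ T).symm (mul_le_mul_of_nonneg_right (conv_bd_le l) hT0)))
    have : i < l := mem_range.1 hi
    refine (hs _ (by simp; omega) (by simp) (by simp; omega)).trans_eq ?_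
    simp [hT, mul_assoc]
  set P : ℝ := (ls.sum : ℝ) + (l : ℝ) + 3
  have h2 : ‖((splits ls).map fun q => ∑ _i ∈ range q.2.1,
      pmom K j ((l + q.2.1 - 1) :: (q.1 ++ q.2.2))).sum‖ ≤
      4 / 49 * P ^ 2 * bd (l + 1) * ((ls.sum : ℝ) * T) := by
    refine (norm_list_sum_le' _ _).trans ?_
    rw [hT, ← sum_splits_weight ls bd, ← List.sum_map_mul_left]
    refine List.sum_le_sum fun q hq => ?_
    rw [sum_const, card_range, nsmul_eq_mul, norm_mul, Complex.norm_natCast]
    rcases Nat.eq_zero_or_pos q.2.1 with h0 | h0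
    · simp [h0]
    have hsum : ls.sum = q.2.1 + (q.1 ++ q.2.2).sum := by
      conv_lhs => rw [splits_spec hq]
      simp; omega
    have hlen : ls.length = (q.1 ++ q.2.2).length + 1 := by
      conv_lhs => rw [splits_spec hq]
      simp; omega
    have hb := hs ((l + q.2.1 - 1) :: (q.1 ++ q.2.2)) (by simp only [List.sum_cons]; omega)
      (by simp only [List.length_cons]; omega) (by simp only [List.sum_cons]; omega)
    have hPq : (q.2.1 : ℝ) + 1 ≤ P := by
      have : (q.2.1 : ℝ) ≤ ls.sum := by exact_mod_cast (by omega : q.2.1 ≤ ls.sum)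
      simp only [P]; linarith [Nat.cast_nonneg (α := ℝ) l]
    have hrest : 0 ≤ ((q.1 ++ q.2.2).map bd).prod := List.prod_nonneg fun a ha => by
      obtain ⟨b, -, rfl⟩ := List.mem_map.1 ha; exact (bd_pos b).le
    calc (q.2.1 : ℝ) * ‖pmom K j ((l + q.2.1 - 1) :: (q.1 ++ q.2.2))‖
        ≤ (q.2.1 : ℝ) * (4 / 49 * P ^ 2 * (bd (l + 1) * bd q.2.1) *
            ((q.1 ++ q.2.2).map bd).prod) := by
          refine mul_le_mul_of_nonneg_left (hb.trans ?_) (Nat.cast_nonneg _)
          rw [List.map_cons, List.prod_cons]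
          exact mul_le_mul_of_nonneg_right (bd_step_le l q.2.1 h0 hPq) hrest
      _ = _ := by ring
  rw [pmom_rec, List.map_cons, List.prod_cons, ← hT]
  refine (norm_add_le _ _).trans ?_
  rw [norm_mul, norm_pow, norm_div, norm_one, Complex.norm_natCast]
  have hN' : 0 < (Fintype.card K : ℝ) := Nat.cast_pos.2 hK
  have hbig : P ^ 2 * (ls.sum : ℝ) ≤ (Fintype.card K : ℝ) ^ 2 := by
    refine le_trans ?_ hN
    have hp : (ls.sum : ℝ) ≤ P := by simp only [P]; linarith [Nat.cast_nonneg (α := ℝ) l]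
    have hp1 : (1 : ℝ) ≤ P := by
      simp only [P]; linarith [Nat.cast_nonneg (α := ℝ) l, Nat.cast_nonneg (α := ℝ) ls.sum]
    have hp' : P = (l : ℝ) + 1 + ls.sum + 2 := by simp only [P]; ring
    rw [← hp']
    calc P ^ 2 * (ls.sum : ℝ) ≤ P ^ 2 * P ^ 2 :=
          mul_le_mul_of_nonneg_left (hp.trans (le_self_pow₀ hp1 two_ne_zero)) (sq_nonneg _)
      _ = _ := by ring
  have h3 : (1 / (Fintype.card K : ℝ)) ^ 2 * (4 / 49 * P ^ 2 * bd (l + 1) * ((ls.sum : ℝ) * T)) ≤
      4 / 49 * bd (l + 1) * T := by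
    rw [div_pow, one_pow, one_div_mul_eq_div, div_le_iff₀ (by positivity)]
    nlinarith [mul_le_mul_of_nonneg_left hbig (mul_nonneg (bd_pos (l + 1)).le hT0)]
  have h4 := mul_le_mul_of_nonneg_left h2 (show 0 ≤ (1 / (Fintype.card K : ℝ)) ^ 2 by positivity)
  nlinarith [mul_nonneg (bd_pos (l + 1)).le hT0]

omit [Fintype ι] [DecidableEq ι] in
/-- An even trace moment controls the operator norm. -/
lemma norm_pow_le_trace {A : Matrix K K ℂ} (hA : Aᴴ = A) (q : ℕ) :
    ‖Matrix.toEuclideanCLM (𝕜 := ℂ) A‖ ^ (2 * 2 ^ q) ≤ (trace (A ^ (2 * 2 ^ q))).re := by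
  set T := Matrix.toEuclideanCLM (𝕜 := ℂ) A
  have hT : IsSelfAdjoint T := by
    rw [IsSelfAdjoint, ← map_star]
    exact congrArg _ hA
  set B := A ^ 2 ^ q with hB
  have hn : ‖T‖ ^ 2 ^ q = ‖Matrix.toEuclideanCLM (𝕜 := ℂ) B‖ := by
    rw [hB, map_pow]
    exact (congrArg NNReal.toReal (hT.nnnorm_pow_two_pow q)).symm
  have hBH : Bᴴ = B := by rw [hB, conjTranspose_pow, hA]
  have htr : (trace (A ^ (2 * 2 ^ q))).re = ∑ a, ∑ b, ‖B a b‖ ^ 2 := by
    rw [mul_comm, pow_mul, ← hB, sq]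
    simp only [trace, diag_apply, mul_apply, Complex.re_sum]
    refine sum_congr rfl fun a _ => sum_congr rfl fun b _ => ?_
    have : B b a = (starRingEnd ℂ) (B a b) := by
      conv_lhs => rw [← hBH]
      rfl
    rw [this, Complex.mul_conj', ← Complex.ofReal_pow, Complex.ofReal_re]
  rw [htr, mul_comm 2, pow_mul, hn]
  set S := ∑ a, ∑ b, ‖B a b‖ ^ 2
  have hS : 0 ≤ S := sum_nonneg fun a _ => sum_nonneg fun b _ => sq_nonneg _
  have hbound : ‖Matrix.toEuclideanCLM (𝕜 := ℂ) B‖ ≤ Real.sqrt S := by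
    refine ContinuousLinearMap.opNorm_le_bound _ (Real.sqrt_nonneg _) fun v => ?_
    rw [EuclideanSpace.norm_eq, EuclideanSpace.norm_eq, ← Real.sqrt_mul hS]
    refine Real.sqrt_le_sqrt ?_
    rw [sum_mul]
    refine sum_le_sum fun a _ => ?_
    rw [Matrix.ofLp_toEuclideanCLM, mulVec, dotProduct]
    refine (pow_le_pow_left₀ (norm_nonneg _) (norm_sum_le _ _) 2).trans ?_
    simp only [norm_mul]
    exact sum_mul_sq_le_sq_mul_sq _ _ _
  exact (pow_le_pow_left₀ (norm_nonneg _) hbound 2).trans_eq (Real.sq_sqrt hS)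

omit [Fintype ι] [DecidableEq ι] in
lemma wordMat_replicate (x : ι × K × K → ℝ) (j : ι) (p : ℕ) :
    wordMat (fun a : Empty => (a.elim : Matrix K K ℂ)) x (List.replicate p (Sum.inr j)) =
      gue x j ^ p := by
  simp [wordMat, List.map_replicate, List.prod_replicate]

/-- The probability that one Gaussian matrix has norm above `14`. -/
lemma prob_norm_gt_le (j : ι) (q : ℕ)
    (hq : ((2 * 2 ^ q : ℕ) : ℝ) + 2 ≤ Real.sqrt (Fintype.card K)) :
    (gauss (ι × K × K)).real {x : ι × K × K → ℝ | 14 < ‖Matrix.toEuclideanCLM (𝕜 := ℂ) (gue x j)‖} ≤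
      Fintype.card K * (1 / 2) ^ (2 * 2 ^ q) := by
  set μ := gauss (ι × K × K)
  set p := 2 * 2 ^ q
  set N := (Fintype.card K : ℝ) with hN
  have hN0 : 0 ≤ N := Nat.cast_nonneg _
  have hNpos : 0 < N := by
    by_contra h
    push Not at h
    rw [Real.sqrt_eq_zero'.2 h] at hq
    have : (0 : ℝ) ≤ ((p : ℕ) : ℝ) := Nat.cast_nonneg _
    linarith
  set P := ntrP (fun a : Empty => (a.elim : Matrix K K ℂ)) (List.replicate p (Sum.inr j : Empty ⊕ ι))
  have hev : ∀ x, (peval x P).re = (trace (gue x j ^ p)).re / N := fun x => by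
    rw [peval_ntrP, wordMat_replicate, ntr, Complex.div_natCast_re]
  have hnn : ∀ x, 0 ≤ (peval x P).re := fun x => by
    rw [hev]
    exact div_nonneg ((pow_nonneg (norm_nonneg _) _).trans
      (norm_pow_le_trace (gue_conjTranspose x j) q)) hN0
  have hint : ∫ x, (peval x P).re ∂μ ≤ 7 ^ p := by
    have hb := norm_pmom_le (K := K) j [p] (by
      rw [List.sum_cons, List.sum_nil, add_zero]
      calc ((p : ℝ) + 2) ^ 4 ≤ Real.sqrt N ^ 4 := pow_le_pow_left₀ (by positivity) hq 4
        _ = (Real.sqrt N ^ 2) ^ 2 := by ring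
        _ = N ^ 2 := by rw [Real.sq_sqrt hN0])
    have e : ∫ x, (peval x P).re ∂μ = (pmom K j [p]).re := by
      simp only [pmom, tmom, List.map_cons, List.map_nil, List.prod_cons, List.prod_nil, mul_one,
        Ex]
      exact integral_re (integrable_peval P)
    rw [e]
    refine (Complex.re_le_norm _).trans (hb.trans ?_)
    simp only [List.map_cons, List.map_nil, List.prod_cons, List.prod_nil, mul_one, bd]
    exact div_le_self (by positivity) (one_le_pow₀ (le_add_of_nonneg_left (Nat.cast_nonneg _)))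
  have hsub : {x : ι × K × K → ℝ | 14 < ‖Matrix.toEuclideanCLM (𝕜 := ℂ) (gue x j)‖} ⊆
      {x | 14 ^ p / N ≤ (peval x P).re} := fun x hx => by
    simp only [Set.mem_ofPred_eq] at hx ⊢
    rw [hev]
    exact div_le_div_of_nonneg_right ((pow_le_pow_left₀ (by norm_num) hx.le p).trans
      (norm_pow_le_trace (gue_conjTranspose x j) q)) hN0
  refine (measureReal_mono hsub).trans ?_
  have hmark := mul_meas_ge_le_integral_of_nonneg (μ := μ) (ae_of_all _ hnn)
    (integrable_peval P).re (14 ^ p / N)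
  have h := hmark.trans hint
  generalize μ.real {x : ι × K × K → ℝ | 14 ^ p / N ≤ (peval x P).re} = mm at h ⊢
  rw [div_mul_eq_mul_div, div_le_iff₀ hNpos, show (14 : ℝ) ^ p = 7 ^ p * 2 ^ p by
    rw [← mul_pow]; norm_num, mul_assoc] at h
  have h' := le_of_mul_le_mul_left h (by positivity)
  rw [one_div, inv_pow, ← div_eq_mul_inv, le_div_iff₀ (by positivity)]
  linarith

variable (κ : ℕ → Type*) [∀ n, Fintype (κ n)] [∀ n, DecidableEq (κ n)]

omit [DecidableEq ι] in
lemma measurableSet_norm_le {n : ℕ} (R : ℝ) :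
    MeasurableSet {x : ι × κ n × κ n → ℝ |
      ∀ j, ‖Matrix.toEuclideanCLM (𝕜 := ℂ) (gue x j)‖ ≤ R} := by
  have hc : ∀ j, Continuous fun x : ι × κ n × κ n → ℝ =>
      Matrix.toEuclideanCLM (𝕜 := ℂ) (gue x j) := fun j => by
    refine (LinearMap.continuous_of_finiteDimensional
      (Matrix.toEuclideanCLM (n := κ n) (𝕜 := ℂ)).toAlgEquiv.toLinearMap).comp ?_
    exact continuous_pi fun a => continuous_pi fun b => by unfold gue; fun_prop
  rw [show {x : ι × κ n × κ n → ℝ | ∀ j, ‖Matrix.toEuclideanCLM (𝕜 := ℂ) (gue x j)‖ ≤ R} =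
      ⋂ j, {x : ι × κ n × κ n → ℝ | ‖Matrix.toEuclideanCLM (𝕜 := ℂ) (gue x j)‖ ≤ R} by ext; simp]
  exact MeasurableSet.iInter fun j => (isClosed_le (hc j).norm continuous_const).measurableSet

/-- With probability tending to one all Gaussian matrices have operator norm at most `14`. -/
theorem tendsto_prob_norm (hcard : Tendsto (fun n => Fintype.card (κ n)) atTop atTop) :
    Tendsto (fun n => (gauss (ι × κ n × κ n)).real
      {x : ι × κ n × κ n → ℝ | ∀ j, ‖Matrix.toEuclideanCLM (𝕜 := ℂ) (gue x j)‖ ≤ 14}) atTop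
      (𝓝 1) := by
  classical
  have hlog : Tendsto (fun N : ℕ => Nat.log 4 N - 2) atTop atTop := by
    refine tendsto_atTop.2 fun b => ?_
    filter_upwards [eventually_ge_atTop (4 ^ (b + 2))] with N hN
    have : b + 2 ≤ Nat.log 4 N := Nat.le_log_of_pow_le (by norm_num) hN
    omega
  have hlow : ∀ᶠ n in atTop, 1 - (Fintype.card ι : ℝ) * (1 / 4) ^ (Nat.log 4 (Fintype.card (κ n)) - 2) ≤
      (gauss (ι × κ n × κ n)).real
        {x : ι × κ n × κ n → ℝ | ∀ j, ‖Matrix.toEuclideanCLM (𝕜 := ℂ) (gue x j)‖ ≤ 14} := by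
    filter_upwards [(hlog.comp hcard).eventually_ge_atTop 4] with n hn
    simp only [Function.comp_apply] at hn
    set N := Fintype.card (κ n)
    set q := Nat.log 4 N - 2 with hq
    set μ := gauss (ι × κ n × κ n)
    set S := {x : ι × κ n × κ n → ℝ | ∀ j, ‖Matrix.toEuclideanCLM (𝕜 := ℂ) (gue x j)‖ ≤ 14}
    have hqlog : q + 2 = Nat.log 4 N := by omega
    have hN0 : N ≠ 0 := fun h => by rw [h, Nat.log_zero_right] at hqlog; omega
    have hup : 4 ^ (q + 2) ≤ N := hqlog ▸ Nat.pow_log_le_self 4 hN0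
    have hdown : N ≤ 4 ^ (q + 3) := by
      rw [show q + 3 = (Nat.log 4 N).succ by omega]
      exact (Nat.lt_pow_succ_log_self (by norm_num) N).le
    have hsq : ((2 * 2 ^ q : ℕ) : ℝ) + 2 ≤ Real.sqrt N := by
      refine Real.le_sqrt_of_sq_le ?_
      have h1 : (2 : ℕ) ^ q * 2 + 2 ≤ 4 * 2 ^ q := by
        have := Nat.one_le_two_pow (n := q); omega
      have h2 : (2 * 2 ^ q + 2) ^ 2 ≤ N := by
        refine le_trans (Nat.pow_le_pow_left (show 2 * 2 ^ q + 2 ≤ 4 * 2 ^ q by omega) 2)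
          (le_trans (le_of_eq ?_) hup)
        rw [show (4 : ℕ) ^ (q + 2) = (2 ^ (q + 2)) ^ 2 by
          rw [← pow_mul, mul_comm, pow_mul]; norm_num]
        ring
      exact_mod_cast h2
    have hsmall : (N : ℝ) * (1 / 2) ^ (2 * 2 ^ q) ≤ (1 / 4) ^ q := by
      have h2 : (N : ℝ) ≤ (4 : ℝ) ^ (q + 3) := by exact_mod_cast hdown
      have h3 : q + q + 3 ≤ 2 ^ q := by
        have : ∀ r, 4 ≤ r → r + r + 3 ≤ 2 ^ r := by
          intro r hr
          induction r, hr using Nat.le_induction with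
          | base => norm_num
          | succ r hr ih => rw [pow_succ]; omega
        exact this q (by omega)
      calc (N : ℝ) * (1 / 2) ^ (2 * 2 ^ q) ≤ 4 ^ (q + 3) * (1 / 2) ^ (2 * (q + 3 + q)) :=
            mul_le_mul h2 (pow_le_pow_of_le_one (by norm_num) (by norm_num) (by omega))
              (by positivity) (by positivity)
        _ = (1 / 4) ^ q := by
            rw [pow_mul, show ((1 : ℝ) / 2) ^ 2 = 1 / 4 by norm_num, pow_add (1 / 4 : ℝ), ← mul_assoc,
              ← mul_pow]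
            norm_num
    have hc : Sᶜ = ⋃ j ∈ (Finset.univ : Finset ι),
        {x : ι × κ n × κ n → ℝ | 14 < ‖Matrix.toEuclideanCLM (𝕜 := ℂ) (gue x j)‖} := by
      ext x
      simp [S]
    have h1 := probReal_compl_eq_one_sub (μ := μ) (measurableSet_norm_le κ (ι := ι) (n := n) 14)
    have h2 : μ.real Sᶜ ≤ (Fintype.card ι : ℝ) * (1 / 4) ^ q := by
      rw [hc]
      refine (measureReal_biUnion_finset_le _ _).trans
        ((Finset.sum_le_sum fun j _ => (prob_norm_gt_le j q hsq).trans hsmall).trans_eq ?_)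
      rw [sum_const, card_univ, nsmul_eq_mul]
    linarith
  refine tendsto_of_tendsto_of_tendsto_of_le_of_le' ?_ tendsto_const_nhds hlow
    (Eventually.of_forall fun n => measureReal_le_one)
  have h := ((tendsto_pow_atTop_nhds_zero_of_lt_one (by norm_num : (0 : ℝ) ≤ 1 / 4)
    (by norm_num)).comp (hlog.comp hcard)).const_mul (Fintype.card ι : ℝ)
  rw [mul_zero] at h
  simpa using tendsto_const_nhds.sub h

end Vale.Agent.P087.Gue
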