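import Mathlib

/-! Expectations of polynomials in independent standard Gaussians and integration by parts. -/

namespace Vale.Agent.P087.Gue

open MeasureTheory ProbabilityTheory Finset

/-- Independent standard Gaussians indexed by `V`. -/
noncomputable def gauss (V : Type*) [Fintype V] : Measure (V → ℝ) :=
  Measure.pi fun _ => gaussianReal 0 1

instance {V : Type*} [Fintype V] : IsProbabilityMeasure (gauss V) := by
  rw [gauss]; infer_instance

/-- The moments of a standard Gaussian. -/
noncomputable def mom (n : ℕ) : ℝ := ∫ x, x ^ n ∂gaussianReal 0 1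

lemma mom_zero : mom 0 = 1 := by simp [mom]

lemma mom_one : mom 1 = 0 := by simp [mom]

lemma mom_eq (n : ℕ) :
    mom n = iteratedDeriv n (fun t : ℝ => Real.exp (t ^ 2 / 2)) 0 := by
  have h := iteratedDeriv_mgf_zero (X := fun x : ℝ => x) (μ := gaussianReal 0 1) (by simp) n
  rw [mgf_fun_id_gaussianReal] at h
  simp only [zero_mul, zero_add, NNReal.coe_one, one_mul] at h
  rw [h]
  rfl

lemma mom_succ (n : ℕ) : mom (n + 1) = n * mom (n - 1) := by
  set M : ℝ → ℝ := fun t => Real.exp (t ^ 2 / 2)
  have hM : ContDiff ℝ (↑(⊤ : ℕ∞)) M := by fun_prop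
  have hd : ∀ k, Differentiable ℝ (iteratedDeriv k M) := fun k =>
    hM.differentiable_iteratedDeriv k (WithTop.coe_lt_coe.2 (ENat.natCast_lt_top k))
  have hs : ∀ k t, deriv (iteratedDeriv k M) t = iteratedDeriv (k + 1) M t := fun k t => by
    rw [iteratedDeriv_succ]
  have key : ∀ n, iteratedDeriv (n + 1) M =
      fun t => t * iteratedDeriv n M t + n * iteratedDeriv (n - 1) M t := by
    intro n
    induction n with
    | zero =>
      funext t
      rw [iteratedDeriv_one, Nat.cast_zero, zero_mul, add_zero, iteratedDeriv_zero]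
      have h := (((hasDerivAt_pow 2 t).div_const 2).exp).deriv
      simp only [Nat.cast_ofNat] at h
      rw [show M = fun t => Real.exp (t ^ 2 / 2) from rfl]
      refine h.trans ?_
      ring
    | succ k ih =>
      funext t
      conv_lhs => rw [iteratedDeriv_succ, ih]
      rw [deriv_fun_add ((differentiableAt_fun_id).fun_mul (hd k t))
          ((differentiableAt_const _).fun_mul (hd (k - 1) t)),
        deriv_fun_mul differentiableAt_fun_id (hd k t), deriv_id'', one_mul,
        deriv_const_mul _ (hd (k - 1) t), hs, hs]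
      rcases k with _ | k
      · simp; ring
      · simp only [Nat.add_sub_cancel]
        push_cast
        ring
  rw [mom_eq, mom_eq, show (fun t : ℝ => Real.exp (t ^ 2 / 2)) = M from rfl, key n]
  simp

lemma integrable_pow_gaussian (n : ℕ) : Integrable (fun x : ℝ => x ^ n) (gaussianReal 0 1) :=
  integrable_pow_of_mem_interior_integrableExpSet (X := fun x : ℝ => x) (by simp) n

variable {V : Type*} [Fintype V]

/-- Evaluation at a real point. -/
noncomputable def peval (x : V → ℝ) : MvPolynomial V ℂ →+* ℂ :=
  MvPolynomial.eval fun v => (x v : ℂ)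

/-- The expectation of a polynomial. -/
noncomputable def Ex (P : MvPolynomial V ℂ) : ℂ := ∫ x, peval x P ∂gauss V

lemma peval_monomial (x : V → ℝ) (s : V →₀ ℕ) (a : ℂ) :
    peval x (MvPolynomial.monomial s a) = a * ((∏ v, x v ^ s v : ℝ) : ℂ) := by
  rw [peval, MvPolynomial.eval_monomial, Finsupp.prod_fintype _ _ fun i => pow_zero _]
  push_cast
  rfl

lemma integrable_peval (P : MvPolynomial V ℂ) : Integrable (fun x => peval x P) (gauss V) := by
  induction P using MvPolynomial.induction_on' with
  | monomial s a =>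
    simp only [peval_monomial]
    exact ((Integrable.fintype_prod fun v => integrable_pow_gaussian (s v)).ofReal).const_mul a
  | add p q hp hq => simp only [map_add]; exact hp.add hq

lemma Ex_add (P Q : MvPolynomial V ℂ) : Ex (P + Q) = Ex P + Ex Q := by
  simp only [Ex, map_add]
  exact integral_add (integrable_peval P) (integrable_peval Q)

lemma Ex_sub (P Q : MvPolynomial V ℂ) : Ex (P - Q) = Ex P - Ex Q := by
  simp only [Ex, map_sub]
  exact integral_sub (integrable_peval P) (integrable_peval Q)

lemma Ex_zero : Ex (0 : MvPolynomial V ℂ) = 0 := by simp [Ex]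

lemma Ex_sum {α : Type*} (s : Finset α) (f : α → MvPolynomial V ℂ) :
    Ex (∑ i ∈ s, f i) = ∑ i ∈ s, Ex (f i) :=
  map_sum (AddMonoidHom.mk' Ex Ex_add) f s

lemma Ex_C (c : ℂ) : Ex (MvPolynomial.C c : MvPolynomial V ℂ) = c := by simp [Ex, peval]

lemma Ex_C_mul (c : ℂ) (P : MvPolynomial V ℂ) : Ex (MvPolynomial.C c * P) = c * Ex P := by
  simp only [Ex, map_mul, peval, MvPolynomial.eval_C]
  exact integral_const_mul c _

lemma Ex_list_sum (l : List (MvPolynomial V ℂ)) : Ex l.sum = (l.map Ex).sum :=
  map_list_sum (AddMonoidHom.mk' Ex Ex_add) l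

lemma Ex_monomial (s : V →₀ ℕ) (a : ℂ) :
    Ex (MvPolynomial.monomial s a) = a * ((∏ v, mom (s v) : ℝ) : ℂ) := by
  simp only [Ex, peval_monomial]
  rw [integral_const_mul, integral_complex_ofReal, gauss,
    integral_fintype_prod_eq_prod (fun v (t : ℝ) => t ^ s v)]
  rfl

/-- Gaussian integration by parts. -/
theorem Ex_X_mul (v : V) (P : MvPolynomial V ℂ) :
    Ex (MvPolynomial.X v * P) = Ex (MvPolynomial.pderiv v P) := by
  classical
  induction P using MvPolynomial.induction_on' with
  | add p q hp hq => rw [mul_add, Ex_add, map_add, Ex_add, hp, hq]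
  | monomial s a =>
    rw [MvPolynomial.pderiv_monomial, MvPolynomial.X, MvPolynomial.monomial_mul, one_mul,
      Ex_monomial, Ex_monomial, mul_assoc a (s v : ℂ)]
    congr 1
    rw [← mul_prod_erase univ _ (mem_univ v), ← mul_prod_erase univ _ (mem_univ v)]
    have h1 : ∀ u ∈ univ.erase v, (Finsupp.single v 1 + s : V →₀ ℕ) u = s u := fun u hu => by
      simp [(ne_of_mem_erase hu).symm]
    have h2 : ∀ u ∈ univ.erase v, (s - Finsupp.single v 1 : V →₀ ℕ) u = s u := fun u hu => by
      simp [(ne_of_mem_erase hu).symm]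
    rw [prod_congr rfl fun u hu => congrArg mom (h1 u hu),
      prod_congr rfl fun u hu => congrArg mom (h2 u hu)]
    simp only [Finsupp.add_apply, Finsupp.single_eq_same, Finsupp.tsub_apply]
    rw [add_comm 1 (s v), mom_succ]
    push_cast
    ring

end Vale.Agent.P087.Gue
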