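import Vale.Agent.P087.Gue.Gauss

/-!
Words in deterministic matrices and Gaussian Hermitian matrices as matrices of polynomials, and the
recursion of their expected trace products obtained by integration by parts.
-/

namespace Vale.Agent.P087.Gue

open Finset Matrix

/-! ### Splittings of a list -/

/-- All ways to single out one position of a list. -/
def splits {A : Type*} : List A → List (List A × A × List A)
  | [] => []
  | a :: l => ([], a, l) :: (splits l).map fun p => (a :: p.1, p.2.1, p.2.2)

lemma splits_spec {A : Type*} : ∀ {l : List A} {p : List A × A × List A},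
    p ∈ splits l → l = p.1 ++ p.2.1 :: p.2.2
  | [], p, h => by simp [splits] at h
  | a :: l, p, h => by
    rcases List.mem_cons.1 h with rfl | h
    · rfl
    · obtain ⟨q, hq, rfl⟩ := List.mem_map.1 h
      simp [← splits_spec hq]

lemma derivation_prod {R : Type*} [Ring R] (d : R →+ R) (h1 : d 1 = 0)
    (hd : ∀ x y, d (x * y) = d x * y + x * d y) {A : Type*} (f : A → R) : ∀ l : List A,
    d (l.map f).prod =
      ((splits l).map fun p => (p.1.map f).prod * d (f p.2.1) * (p.2.2.map f).prod).sum
  | [] => by simp [splits, h1]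
  | a :: l => by
    rw [List.map_cons, List.prod_cons, hd, derivation_prod d h1 hd f l, splits, List.map_cons,
      List.sum_cons, List.map_map, ← List.sum_map_mul_left]
    simp [Function.comp_def, mul_assoc]

lemma sum_map_ite {A R : Type*} [AddCommMonoid R] (p : A → Bool) (f : A → R) : ∀ l : List A,
    (l.map fun a => if p a then f a else 0).sum = ((l.filter p).map f).sum
  | [] => rfl
  | a :: l => by cases h : p a <;> simp [h, sum_map_ite p f l]

lemma finset_sum_list {A B R : Type*} [AddCommMonoid R] (s : Finset B) (f : B → A → R) :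
    ∀ l : List A, ∑ b ∈ s, (l.map (f b)).sum = (l.map fun a => ∑ b ∈ s, f b a).sum
  | [] => by simp
  | a :: l => by simp [sum_add_distrib, finset_sum_list s f l]

/-! ### The Gaussian Hermitian matrix -/

variable {ι α K : Type*} [Fintype K] [DecidableEq K]

/-- The scale `1 / sqrt N`. -/
noncomputable def scale (K : Type*) [Fintype K] : ℂ :=
  (((Real.sqrt (Fintype.card K))⁻¹ : ℝ) : ℂ)

/-- Coefficient of a coordinate in its own entry. -/
noncomputable def cA : ℂ := (1 - Complex.I) / 2

/-- Coefficient of a coordinate in the transposed entry. -/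
noncomputable def cB : ℂ := (1 + Complex.I) / 2

/-- The orthonormal directions of the scaled Gaussian Hermitian matrix. -/
noncomputable def bas (v : K × K) : Matrix K K ℂ := fun a b =>
  scale K * (cA * (if a = v.1 ∧ b = v.2 then 1 else 0) + cB * (if a = v.2 ∧ b = v.1 then 1 else 0))

/-- The Gaussian Hermitian matrix with polynomial entries. -/
noncomputable def gp (j : ι) : Matrix K K (MvPolynomial (ι × K × K) ℂ) := fun a b =>
  MvPolynomial.C (scale K * cA) * MvPolynomial.X (j, a, b) +
    MvPolynomial.C (scale K * cB) * MvPolynomial.X (j, b, a)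

omit [DecidableEq K] in
lemma scale_sq : scale K * scale K = 1 / (Fintype.card K : ℂ) := by
  rw [scale, ← Complex.ofReal_mul, ← mul_inv, Real.mul_self_sqrt (Nat.cast_nonneg _)]
  simp

/-- Completeness of the directions. -/
lemma sum_bas_mul_bas (a b e f : K) :
    ∑ v : K × K, bas v a b * bas v e f =
      if a = f ∧ b = e then 1 / (Fintype.card K : ℂ) else 0 := by
  rw [Fintype.sum_prod_type]
  have h : ∀ c d : K, bas (c, d) a b * bas (c, d) e f = scale K * scale K *
      (cA * cA * ((if a = c ∧ b = d then 1 else 0) * (if e = c ∧ f = d then 1 else 0)) +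
      cA * cB * ((if a = c ∧ b = d then 1 else 0) * (if e = d ∧ f = c then 1 else 0)) +
      cB * cA * ((if a = d ∧ b = c then 1 else 0) * (if e = c ∧ f = d then 1 else 0)) +
      cB * cB * ((if a = d ∧ b = c then 1 else 0) * (if e = d ∧ f = c then 1 else 0))) := by
    intro c d; simp only [bas]; ring
  simp only [h, ← mul_sum, sum_add_distrib, scale_sq, ite_and, mul_ite, mul_one, mul_zero]
  simp only [sum_ite_eq, mem_univ, if_true]
  simp only [sum_ite_irrel, sum_const_zero, sum_ite_eq, mem_univ, if_true]
  have hAA : cA * cA = -Complex.I / 2 := by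
    unfold cA; linear_combination (1 / 4 : ℂ) * Complex.I_sq
  have hBB : cB * cB = Complex.I / 2 := by
    unfold cB; linear_combination (1 / 4 : ℂ) * Complex.I_sq
  have hAB : cA * cB = 1 / 2 := by
    unfold cA cB; linear_combination (-1 / 4 : ℂ) * Complex.I_sq
  have hBA : cB * cA = 1 / 2 := by rw [mul_comm, hAB]
  rw [hAA, hBB, hAB, hBA]
  by_cases h1 : a = f <;> by_cases h2 : b = e <;> by_cases h3 : a = e <;> by_cases h4 : b = f <;>
    simp_all <;> (try ring_nf) <;> simp

variable {V : Type*}

/-- A complex matrix with constant polynomial entries. -/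
noncomputable def cm (A : Matrix K K ℂ) : Matrix K K (MvPolynomial V ℂ) := A.map MvPolynomial.C

lemma trace_bas_pair (A A' : Matrix K K (MvPolynomial V ℂ)) :
    ∑ v : K × K, trace (cm (bas v) * A * cm (bas v) * A') =
      MvPolynomial.C (1 / (Fintype.card K : ℂ)) * (trace A * trace A') := by
  have h : ∀ v : K × K, trace (cm (bas v) * A * cm (bas v) * A') =
      ∑ a, ∑ f, ∑ e, ∑ b, MvPolynomial.C (bas v a b * bas v e f) * (A b e * A' f a) := fun v => by
    simp only [trace, diag_apply, mul_apply, cm, map_apply, sum_mul, map_mul]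
    exact sum_congr rfl fun a _ => sum_congr rfl fun f _ => sum_congr rfl fun e _ =>
      sum_congr rfl fun b _ => by ring
  simp only [h]
  rw [sum_comm]
  calc ∑ a, ∑ v : K × K, ∑ f, ∑ e, ∑ b, MvPolynomial.C (bas v a b * bas v e f) * (A b e * A' f a)
      = ∑ a, ∑ f, ∑ e, ∑ b, MvPolynomial.C (∑ v : K × K, bas v a b * bas v e f) *
          (A b e * A' f a) := by
        refine sum_congr rfl fun a _ => ?_
        rw [sum_comm]
        refine sum_congr rfl fun f _ => ?_
        rw [sum_comm]
        refine sum_congr rfl fun e _ => ?_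
        rw [sum_comm]
        exact sum_congr rfl fun b _ => by rw [map_sum, sum_mul]
    _ = _ := by
        simp only [sum_bas_mul_bas, ite_and, apply_ite MvPolynomial.C, map_zero, ite_mul, zero_mul,
          sum_ite_irrel, sum_const_zero, sum_ite_eq, sum_ite_eq', mem_univ, if_true]
        simp only [trace, diag_apply]
        rw [sum_mul_sum]
        simp only [mul_sum]
        exact sum_comm

lemma trace_bas_bas (A A' : Matrix K K (MvPolynomial V ℂ)) :
    ∑ v : K × K, trace (cm (bas v) * A) * trace (cm (bas v) * A') =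
      MvPolynomial.C (1 / (Fintype.card K : ℂ)) * trace (A * A') := by
  have h : ∀ v : K × K, trace (cm (bas v) * A) * trace (cm (bas v) * A') =
      ∑ a, ∑ b, ∑ e, ∑ f, MvPolynomial.C (bas v a b * bas v e f) * (A b a * A' f e) := fun v => by
    simp only [trace, diag_apply, mul_apply, cm, map_apply]
    rw [sum_mul_sum]
    refine sum_congr rfl fun a _ => ?_
    simp only [sum_mul_sum]
    rw [sum_comm]
    exact sum_congr rfl fun b _ => sum_congr rfl fun e _ => sum_congr rfl fun f _ => by
      rw [map_mul]; ring
  simp only [h]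
  rw [sum_comm]
  calc ∑ a, ∑ v : K × K, ∑ b, ∑ e, ∑ f, MvPolynomial.C (bas v a b * bas v e f) * (A b a * A' f e)
      = ∑ a, ∑ b, ∑ e, ∑ f, MvPolynomial.C (∑ v : K × K, bas v a b * bas v e f) *
          (A b a * A' f e) := by
        refine sum_congr rfl fun a _ => ?_
        rw [sum_comm]
        refine sum_congr rfl fun b _ => ?_
        rw [sum_comm]
        refine sum_congr rfl fun e _ => ?_
        rw [sum_comm]
        exact sum_congr rfl fun f _ => by rw [map_sum, sum_mul]
    _ = _ := by
        simp only [sum_bas_mul_bas, ite_and, apply_ite MvPolynomial.C, map_zero, ite_mul, zero_mul,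
          sum_ite_eq, mem_univ, if_true]
        simp only [trace, diag_apply, mul_apply, mul_sum]
        rw [sum_comm]

/-! ### Words -/

/-- Whether a letter is the Gaussian letter `j`. -/
def hit [DecidableEq ι] (j : ι) : α ⊕ ι → Bool
  | .inl _ => false
  | .inr i => decide (i = j)

variable (D : α → Matrix K K ℂ)

/-- The matrix of a letter. -/
noncomputable def letP : α ⊕ ι → Matrix K K (MvPolynomial (ι × K × K) ℂ) :=
  Sum.elim (fun a => cm (D a)) gp

/-- The matrix of a word. -/
noncomputable def wordP (w : List (α ⊕ ι)) : Matrix K K (MvPolynomial (ι × K × K) ℂ) :=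
  (w.map (letP D)).prod

/-- The normalised trace of a word. -/
noncomputable def ntrP (w : List (α ⊕ ι)) : MvPolynomial (ι × K × K) ℂ :=
  MvPolynomial.C (1 / (Fintype.card K : ℂ)) * trace (wordP D w)

lemma wordP_append (u w : List (α ⊕ ι)) : wordP D (u ++ w) = wordP D u * wordP D w := by
  simp [wordP]

lemma ntrP_rotate (u w : List (α ⊕ ι)) : ntrP D (u ++ w) = ntrP D (w ++ u) := by
  simp only [ntrP, wordP_append]
  rw [trace_mul_comm]

variable [Fintype ι]

/-- The expected product of normalised traces. -/
noncomputable def tmom (ws : List (List (α ⊕ ι))) : ℂ := Ex (ws.map (ntrP D)).prod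

lemma tmom_perm {ws ws' : List (List (α ⊕ ι))} (h : ws.Perm ws') : tmom D ws = tmom D ws' := by
  rw [tmom, tmom, (h.map (ntrP D)).prod_eq]

variable [DecidableEq ι]

omit [DecidableEq K] [Fintype ι] [DecidableEq ι] in
lemma pderiv_mat_mul (v : ι × K × K) (A B : Matrix K K (MvPolynomial (ι × K × K) ℂ)) :
    (A * B).map (MvPolynomial.pderiv v) =
      A.map (MvPolynomial.pderiv v) * B + A * B.map (MvPolynomial.pderiv v) := by
  refine Matrix.ext fun a b => ?_
  simp only [map_apply, mul_apply, Matrix.add_apply, map_sum, ← sum_add_distrib,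
    MvPolynomial.pderiv_mul]

omit [Fintype ι] in
lemma pderiv_gp (v : ι × K × K) (j : ι) :
    (gp j : Matrix K K (MvPolynomial (ι × K × K) ℂ)).map (MvPolynomial.pderiv v) =
      if v.1 = j then cm (bas v.2) else 0 := by
  obtain ⟨i, c, d⟩ := v
  refine Matrix.ext fun a b => ?_
  rw [map_apply, gp, map_add, MvPolynomial.pderiv_C_mul, MvPolynomial.pderiv_C_mul,
    MvPolynomial.pderiv_X, MvPolynomial.pderiv_X]
  by_cases h : i = j
  · subst h
    simp only [if_true, cm, map_apply, bas, Pi.single_apply, Prod.mk.injEq, true_and]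
    by_cases h1 : a = c ∧ b = d <;> by_cases h2 : a = d ∧ b = c <;>
      simp_all [apply_ite MvPolynomial.C, mul_ite, eq_comm, and_comm] <;> split_ifs <;> ring
  · simp [h, Ne.symm h]

omit [Fintype ι] in
lemma pderiv_wordP (j : ι) (v : K × K) (w : List (α ⊕ ι)) :
    (wordP D w).map (MvPolynomial.pderiv (j, v)) =
      (((splits w).filter fun p => hit j p.2.1).map fun p =>
        wordP D p.1 * cm (bas v) * wordP D p.2.2).sum := by
  let d : Matrix K K (MvPolynomial (ι × K × K) ℂ) →+ Matrix K K (MvPolynomial (ι × K × K) ℂ) :=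
    AddMonoidHom.mk' (fun A => A.map (MvPolynomial.pderiv (j, v)))
      (fun A B => by ext a b; simp)
  have h1 : d 1 = 0 := by
    ext a b : 2
    by_cases h : a = b <;> simp [d, h]
  change d ((w.map (letP D)).prod) = _
  rw [derivation_prod d h1 (pderiv_mat_mul _) (letP D) w, ← sum_map_ite]
  refine congrArg List.sum (List.map_congr_left fun p _ => ?_)
  rcases p with ⟨a, g | g, b⟩
  · have : d (cm (D g)) = 0 := by ext; simp [d, cm]
    simp [letP, hit, this]
  · have := pderiv_gp (K := K) (j, v) g
    simp only [d, AddMonoidHom.mk'_apply, letP, Sum.elim_inr, this, hit, decide_eq_true_eq]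
    by_cases h : g = j
    · simp [h, wordP]; rfl
    · simp [h, Ne.symm h]

omit [Fintype ι] [DecidableEq ι] in
lemma trace_gp_mul (j : ι) (U : Matrix K K (MvPolynomial (ι × K × K) ℂ)) :
    trace (gp j * U) = ∑ v : K × K, MvPolynomial.X (j, v) * trace (cm (bas v) * U) := by
  have h : ∀ a b : K, (gp j : Matrix K K (MvPolynomial (ι × K × K) ℂ)) a b =
      ∑ v : K × K, MvPolynomial.X (j, v) * MvPolynomial.C (bas v a b) := by
    intro a b
    rw [Fintype.sum_prod_type]
    simp only [bas, gp, map_add, map_mul, mul_add, sum_add_distrib, ite_and,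
      apply_ite MvPolynomial.C, map_zero, mul_ite, mul_one, mul_zero, sum_ite_eq,
      sum_ite_irrel, sum_const_zero, mem_univ, if_true]
    ring
  simp only [trace, diag_apply, mul_apply, h, cm, map_apply, sum_mul, mul_sum]
  conv_lhs => arg 2; ext a; rw [sum_comm]
  rw [sum_comm]
  exact sum_congr rfl fun v _ => sum_congr rfl fun a _ => sum_congr rfl fun b _ => mul_assoc _ _ _

omit [DecidableEq K] [Fintype ι] [DecidableEq ι] in
lemma trace_list_sum (l : List (Matrix K K (MvPolynomial V ℂ))) :
    trace l.sum = (l.map trace).sum :=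
  map_list_sum (traceAddMonoidHom K (MvPolynomial V ℂ)) l

omit [DecidableEq K] [Fintype ι] [DecidableEq ι] in
lemma pderiv_trace (v : ι × K × K) (A : Matrix K K (MvPolynomial (ι × K × K) ℂ)) :
    MvPolynomial.pderiv v (trace A) = trace (A.map (MvPolynomial.pderiv v)) := by
  simp [trace, map_sum]

omit [Fintype ι] in
lemma sum_first (j : ι) (u : List (α ⊕ ι)) (F : MvPolynomial (ι × K × K) ℂ) :
    MvPolynomial.C (1 / (Fintype.card K : ℂ)) *
      ∑ v : K × K, MvPolynomial.pderiv (j, v) (trace (cm (bas v) * wordP D u)) * F =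
      (((splits u).filter fun p => hit j p.2.1).map fun p =>
        ntrP D p.1 * (ntrP D p.2.2 * F)).sum := by
  have h : ∀ v : K × K, MvPolynomial.pderiv (j, v) (trace (cm (bas v) * wordP D u)) =
      (((splits u).filter fun p => hit j p.2.1).map fun p =>
        trace (cm (bas v) * wordP D p.1 * cm (bas v) * wordP D p.2.2)).sum := by
    intro v
    have h0 : (cm (bas v) : Matrix K K (MvPolynomial (ι × K × K) ℂ)).map
        (MvPolynomial.pderiv (j, v)) = 0 := by ext; simp [cm]
    rw [pderiv_trace, pderiv_mat_mul, h0, zero_mul, zero_add, pderiv_wordP, ← List.sum_map_mul_left,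
      trace_list_sum, List.map_map]
    simp [Function.comp_def, Matrix.mul_assoc]
  simp only [h, ← List.sum_map_mul_right]
  rw [finset_sum_list, ← List.sum_map_mul_left]
  refine congrArg List.sum (List.map_congr_left fun p _ => ?_)
  rw [← sum_mul, trace_bas_pair, ntrP, ntrP]
  ring

omit [Fintype ι] in
lemma sum_second (j : ι) (u : List (α ⊕ ι)) (ws : List (List (α ⊕ ι))) :
    MvPolynomial.C (1 / (Fintype.card K : ℂ)) *
      ∑ v : K × K, trace (cm (bas v) * wordP D u) *
        MvPolynomial.pderiv (j, v) (ws.map (ntrP D)).prod =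
      ((splits ws).map fun q => (((splits q.2.1).filter fun p => hit j p.2.1).map fun p =>
        MvPolynomial.C ((1 / (Fintype.card K : ℂ)) ^ 2) *
          ((((u ++ p.2.2 ++ p.1) :: (q.1 ++ q.2.2)).map (ntrP D)).prod)).sum).sum := by
  have h : ∀ v : K × K, MvPolynomial.pderiv (j, v) (ws.map (ntrP D)).prod =
      ((splits ws).map fun q => (((splits q.2.1).filter fun p => hit j p.2.1).map fun p =>
        MvPolynomial.C (1 / (Fintype.card K : ℂ)) *
          trace (cm (bas v) * (wordP D p.2.2 * wordP D p.1)) *
            ((q.1 ++ q.2.2).map (ntrP D)).prod).sum).sum := by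
    intro v
    have hd := derivation_prod ((MvPolynomial.pderiv (j, v)).toLinearMap.toAddMonoidHom)
      (by simp) (fun x y => MvPolynomial.pderiv_mul) (ntrP D) ws
    refine hd.trans (congrArg List.sum (List.map_congr_left fun q _ => ?_))
    simp only [LinearMap.toAddMonoidHom_coe, Derivation.coeFn_coe,
      ntrP, MvPolynomial.pderiv_C_mul, pderiv_trace, pderiv_wordP, trace_list_sum, List.map_map,
      ← List.sum_map_mul_left, ← List.sum_map_mul_right, Function.comp_def, List.map_append,
      List.prod_append]
    refine congrArg List.sum (List.map_congr_left fun p _ => ?_)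
    rw [trace_mul_cycle, trace_mul_comm]
    ring
  simp only [h, ← List.sum_map_mul_left]
  rw [finset_sum_list, ← List.sum_map_mul_left]
  refine congrArg List.sum (List.map_congr_left fun q _ => ?_)
  rw [finset_sum_list, ← List.sum_map_mul_left]
  refine congrArg List.sum (List.map_congr_left fun p _ => ?_)
  have e : ∀ v : K × K, trace (cm (bas v) * wordP D u) *
      (MvPolynomial.C (1 / (Fintype.card K : ℂ)) *
        trace (cm (bas v) * (wordP D p.2.2 * wordP D p.1)) *
          ((q.1 ++ q.2.2).map (ntrP D)).prod) =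
      MvPolynomial.C (1 / (Fintype.card K : ℂ)) *
        (trace (cm (bas v) * wordP D u) * trace (cm (bas v) * (wordP D p.2.2 * wordP D p.1))) *
          ((q.1 ++ q.2.2).map (ntrP D)).prod := fun v => by ring
  simp only [e, ← sum_mul, ← mul_sum, trace_bas_bas, List.map_cons, List.prod_cons]
  rw [ntrP, wordP_append, wordP_append, Matrix.mul_assoc, map_pow]
  ring

/-- The recursion of expected trace products. -/
theorem tmom_rec (j : ι) (u : List (α ⊕ ι)) (ws : List (List (α ⊕ ι))) :
    tmom D ((Sum.inr j :: u) :: ws) =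
      (((splits u).filter fun p => hit j p.2.1).map fun p =>
        tmom D (p.1 :: p.2.2 :: ws)).sum +
      (1 / (Fintype.card K : ℂ)) ^ 2 *
        ((splits ws).map fun q => (((splits q.2.1).filter fun p => hit j p.2.1).map fun p =>
          tmom D ((u ++ p.2.2 ++ p.1) :: (q.1 ++ q.2.2))).sum).sum := by
  set F := (ws.map (ntrP D)).prod with hF
  have h0 : ((((Sum.inr j :: u) :: ws)).map (ntrP D)).prod =
      ∑ v : K × K, MvPolynomial.C (1 / (Fintype.card K : ℂ)) *
        (MvPolynomial.X (j, v) * (trace (cm (bas v) * wordP D u) * F)) := by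
    have : wordP D (Sum.inr j :: u) = gp j * wordP D u := by simp [wordP, letP]
    rw [List.map_cons, List.prod_cons, ntrP, this, trace_gp_mul, mul_sum, sum_mul]
    exact sum_congr rfl fun v _ => by ring
  rw [tmom, h0, Ex_sum]
  have hv : ∀ v : K × K, Ex (MvPolynomial.C (1 / (Fintype.card K : ℂ)) *
      (MvPolynomial.X (j, v) * (trace (cm (bas v) * wordP D u) * F))) =
      Ex (MvPolynomial.C (1 / (Fintype.card K : ℂ)) *
        (MvPolynomial.pderiv (j, v) (trace (cm (bas v) * wordP D u)) * F)) +
      Ex (MvPolynomial.C (1 / (Fintype.card K : ℂ)) *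
        (trace (cm (bas v) * wordP D u) * MvPolynomial.pderiv (j, v) F)) := by
    intro v
    rw [Ex_C_mul, Ex_X_mul, MvPolynomial.pderiv_mul, ← Ex_C_mul, mul_add, Ex_add]
  simp only [hv, sum_add_distrib, ← Ex_sum, ← mul_sum]
  rw [sum_first, hF, sum_second, Ex_list_sum, Ex_list_sum, List.map_map, List.map_map,
    ← List.sum_map_mul_left]
  congr 1
  refine congrArg List.sum (List.map_congr_left fun q _ => ?_)
  simp only [Function.comp_apply, Ex_list_sum, List.map_map, ← List.sum_map_mul_left]
  refine congrArg List.sum (List.map_congr_left fun p _ => ?_)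
  simp only [Function.comp_apply, Ex_C_mul, tmom]

end Vale.Agent.P087.Gue
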